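import Vale.Agent.P103.H308.Main
import Mathlib.Dynamics.TopologicalEntropy.NetEntropy

/-!
# P103: polynomial growth of separated sets
-/

namespace Vale.Agent.N103

open Filter Topology Vale.Agent.P103

variable {M M' : Type} [MetricSpace M] [MetricSpace M']

def Sep (f : M → M) (n : ℕ) (ε : ℝ) (E : Finset M) : Prop :=
  ∀ x ∈ E, ∀ y ∈ E, x ≠ y → ε < dn f n x y

def Poly (f : M → M) : Prop :=
  ∀ ε : ℝ, 0 < ε → ∃ C D : ℕ, ∀ (n : ℕ) (E : Finset M), Sep f n ε E → E.card ≤ C * (n + 1) ^ D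

theorem dn_le {f : M → M} {n : ℕ} {x y : M} {ε : ℝ} (hε : 0 ≤ ε) :
    dn f n x y ≤ ε ↔ ∀ j < n, dist (f^[j] x) (f^[j] y) ≤ ε :=
  ⟨fun h j hj => (le_ciSup (H308.bddAbove_dn f n x y) ⟨j, hj⟩).trans h,
    fun h => Real.iSup_le (fun j => h j j.2) hε⟩

theorem exists_net (X : Type) [MetricSpace X] [CompactSpace X] {ε : ℝ} (hε : 0 < ε) :
    ∃ (N : ℕ) (net : X → Fin N), ∀ x y, net x = net y → dist x y ≤ ε := by
  obtain ⟨t, -, hfin, ht⟩ := finite_cover_balls_of_compact (isCompact_univ (X := X)) (half_pos hε)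
  have hc : ∀ y : X, ∃ i : t, dist y i < ε / 2 := by
    intro y
    obtain ⟨i, hi, h⟩ := Set.mem_iUnion₂.1 (ht (Set.mem_univ y))
    exact ⟨⟨i, hi⟩, h⟩
  choose c hc using hc
  have : Finite t := hfin
  refine ⟨Nat.card t, fun x => Finite.equivFin t (c x), fun x y h => ?_⟩
  have h1 := hc x
  rw [(Finite.equivFin t).injective h] at h1
  have h2 := dist_triangle_right x y (c y)
  linarith [hc y]

theorem code_bound {f : M → M} {n : ℕ} {ε : ℝ} (hε : 0 < ε) {N : ℕ} (net : M → Fin N)
    (hnet : ∀ x y, net x = net y → dist x y ≤ ε) {K : Type} [Fintype K] (κ : M → K)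
    (B : M → Finset ℕ) {T : ℕ} (hB : ∀ x, (B x).card ≤ T)
    (h : ∀ x y, κ x = κ y → ∀ j < n, j ∉ B x → j ∉ B y → dist (f^[j] x) (f^[j] y) ≤ ε)
    {E : Finset M} (hE : Sep f n ε E) : E.card ≤ Fintype.card K * (n * N + 1) ^ T := by
  classical
  let S : M → Finset (Fin n × Fin N) := fun x =>
    (Finset.univ.filter fun j : Fin n => (j : ℕ) ∈ B x).image fun j => (j, net (f^[j] x))
  have hS : ∀ x, (S x).card ≤ T := fun x => Finset.card_image_le.trans
    ((Finset.card_le_card_of_injOn (fun j : Fin n => (j : ℕ)) (fun j hj => by simpa using hj)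
      Fin.val_injective.injOn).trans (hB x))
  let φ : M → Fin T → Option (Fin n × Fin N) := fun x i => (S x).toList[(i : ℕ)]?
  have hφ : ∀ x y, φ x = φ y → S x ⊆ S y := by
    intro x y hxy b hb
    obtain ⟨i, hi, hib⟩ := List.getElem_of_mem (Finset.mem_toList.mpr hb)
    have hiT : i < T := lt_of_lt_of_le hi (by rw [Finset.length_toList]; exact hS x)
    have h1 : φ x ⟨i, hiT⟩ = some b := by
      simp only [φ]
      rw [List.getElem?_eq_getElem hi, hib]
    rw [hxy] at h1
    exact Finset.mem_toList.mp (List.mem_of_getElem? h1)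
  have key : ∀ x y, φ x = φ y → ∀ j < n, j ∈ B x → dist (f^[j] x) (f^[j] y) ≤ ε := by
    intro x y hxy j hj hb
    have h1 : ((⟨j, hj⟩ : Fin n), net (f^[j] x)) ∈ S x :=
      Finset.mem_image.2 ⟨⟨j, hj⟩, by simpa using hb, rfl⟩
    obtain ⟨i, -, hi⟩ := Finset.mem_image.1 (hφ x y hxy h1)
    obtain ⟨rfl, h2⟩ := Prod.ext_iff.1 hi
    exact hnet _ _ h2.symm
  have hcard : E.card ≤ Fintype.card (K × (Fin T → Option (Fin n × Fin N))) := by
    rw [← Finset.card_univ]
    refine Finset.card_le_card_of_injOn (fun x => (κ x, φ x)) (fun x _ => by simp)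
      fun x hx y hy hxy => ?_
    obtain ⟨h1, h2⟩ := Prod.ext_iff.1 hxy
    by_contra hne
    refine (hE x hx y hy hne).not_ge ((dn_le hε.le).2 fun j hj => ?_)
    by_cases a : j ∈ B x
    · exact key x y h2 j hj a
    by_cases b : j ∈ B y
    · rw [dist_comm]
      exact key y x h2.symm j hj b
    · exact h x y h1 j hj a b
  simpa using hcard

theorem Poly.iter {f : M → M} (h : Poly f) {k : ℕ} (hk : 1 ≤ k) : Poly f^[k] := by
  intro ε hε
  obtain ⟨C, D, hC⟩ := h ε hε
  refine ⟨C * k ^ D, D, fun n E hE => (hC (n * k) E fun x hx y hy hxy =>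
    (hE x hx y hy hxy).trans_le (H308.dn_iter_le f hk n x y)).trans ?_⟩
  rw [mul_assoc, ← mul_pow]
  gcongr
  nlinarith

theorem Poly.retract [CompactSpace M] [CompactSpace M'] {f : M → M} (h : Poly f) {i : M → M'}
    {r : M' → M} (hi : Continuous i) (hr : ∀ x, r (i x) = x) : Poly (i ∘ f ∘ r) := by
  classical
  intro ε hε
  obtain ⟨δ, hδ, hu⟩ := Metric.uniformContinuous_iff.1 (CompactSpace.uniformContinuous_of_continuous hi)
    ε hε
  obtain ⟨C, D, hC⟩ := h (δ / 2) (half_pos hδ)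
  obtain ⟨N, net, hnet⟩ := exists_net M' hε
  have hit : ∀ j x, (i ∘ f ∘ r)^[j + 1] x = i (f^[j + 1] (r x)) := by
    intro j x
    induction j with
    | zero => rfl
    | succ j ih => rw [Function.iterate_succ_apply', ih, Function.iterate_succ_apply' f (j + 1)]; simp [hr]
  refine ⟨N * C, D, fun n E hE => ?_⟩
  have key : ∀ x ∈ E, ∀ y ∈ E, net x = net y → dn f n (r x) (r y) ≤ δ / 2 → x = y := by
    intro x hx y hy h1 h2
    by_contra hne
    refine (hE x hx y hy hne).not_ge ((dn_le hε.le).2 fun j hj => ?_)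
    rcases j with _ | j
    · exact hnet x y h1
    · rw [hit, hit]
      exact (hu (((dn_le (half_pos hδ).le).1 h2 _ hj).trans_lt (half_lt_self hδ))).le
  have h2 : ∀ c ∈ (Finset.univ : Finset (Fin N)),
      (E.filter fun x => net x = c).card ≤ C * (n + 1) ^ D := by
    intro c _
    have hinj : Set.InjOn r (E.filter fun x => net x = c) := by
      intro x hx y hy hxy
      simp only [Finset.coe_filter, Set.mem_ofPred_eq] at hx hy
      refine key x hx.1 y hy.1 (hx.2.trans hy.2.symm) ((dn_le (half_pos hδ).le).2 fun j _ => ?_)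
      rw [hxy, dist_self]
      exact (half_pos hδ).le
    rw [← Finset.card_image_of_injOn hinj]
    refine hC n _ fun a ha b hb hab => ?_
    obtain ⟨x, hx, rfl⟩ := Finset.mem_image.1 ha
    obtain ⟨y, hy, rfl⟩ := Finset.mem_image.1 hb
    rw [Finset.mem_filter] at hx hy
    exact not_le.1 fun hle => hab (by rw [key x hx.1 y hy.1 (hx.2.trans hy.2.symm) hle])
  have h3 := Finset.card_le_mul_card_image_of_maps_to (f := net) (s := E) (t := Finset.univ)
    (fun _ _ => Finset.mem_univ _) _ h2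
  rw [Finset.card_univ, Fintype.card_fin] at h3
  refine h3.trans (le_of_eq ?_)
  ring

theorem coverEntropy_zero [Nonempty M] {f : M → M} (h : IsTopEntropy f 0) :
    Dynamics.coverEntropy f Set.univ = 0 := by
  refine le_antisymm ?_ (Dynamics.coverEntropy_nonneg f Set.univ_nonempty)
  rw [Dynamics.coverEntropy_eq_iSup_netEntropyEntourage]
  refine iSup₂_le fun U hU => ?_
  obtain ⟨ε, hε, hεU⟩ := Metric.mem_uniformity_dist.1 hU
  refine le_trans ?_ (H308.gr_le_zero h (half_pos hε))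
  refine ExpGrowth.expGrowthSup_monotone fun n => ENat.toENNReal_mono ?_
  refine iSup₂_le fun s hs => le_iSup₂_of_le s (fun x hx y hy hxy => not_le.1 fun hle => ?_) le_rfl
  refine Set.disjoint_left.1 (hs.2 hx hy hxy) (?_ : y ∈ _) ?_
  · exact Dynamics.mem_ball_dynEntourage.2 fun k hk =>
      hεU (((dn_le (half_pos hε).le).1 hle k hk).trans_lt (half_lt_self hε))
  · exact Dynamics.mem_ball_dynEntourage.2 fun k _ => hεU (by simpa using hε)

end Vale.Agent.N103
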