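import Mathlib

/-!
# P103: topological entropy and the action on homology, as in the problem text
-/

namespace Vale.Agent.N103.Def

open Filter Topology CategoryTheory AlgebraicTopology
open scoped DirectSum Manifold

/-- `d_n(x,y) = max_{0 ≤ j < n} d(f^j x, f^j y)`. -/
noncomputable def dn {M : Type} [MetricSpace M] (f : M → M) (n : ℕ) (x y : M) : ℝ :=
  ⨆ j : Fin n, dist (f^[j] x) (f^[j] y)

/-- `s_f(n,ε)`: the largest cardinality of a set whose distinct points satisfy `d_n(x,y) > ε`. -/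
noncomputable def sepCard {M : Type} [MetricSpace M] (f : M → M) (n : ℕ) (ε : ℝ) : ℕ∞ :=
  ⨆ (E : Finset M) (_ : ∀ x ∈ E, ∀ y ∈ E, x ≠ y → ε < dn f n x y), (E.card : ℕ∞)

/-- `h = lim_{ε ↓ 0} limsup_n (1/n) log s_f(n,ε)`. -/
def IsTopEntropy {M : Type} [MetricSpace M] (f : M → M) (h : EReal) : Prop :=
  Tendsto (fun ε : ℝ => limsup (fun n : ℕ => ENNReal.log (sepCard f n ε : ENNReal) / (n : EReal))
    atTop) (𝓝[>] 0) (𝓝 h)

/-- The functor `H_k(-; ℝ)`, singular homology with real coefficients. -/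
noncomputable abbrev H (k : ℕ) : TopCat.{0} ⥤ ModuleCat.{0} ℝ :=
  (singularHomologyFunctor (ModuleCat.{0} ℝ) k).obj (ModuleCat.of ℝ ℝ)

/-- `H_*(M; ℝ)`, the direct sum of the `H_k(M; ℝ)` for `0 ≤ k ≤ m`. -/
abbrev Hstar (m : ℕ) (M : Type) [TopologicalSpace M] : Type :=
  ⨁ k : Fin (m + 1), (H k).obj (TopCat.of M)

/-- The induced map `f_*` on `H_*(M; ℝ)`. -/
noncomputable def fstar (m : ℕ) {M : Type} [TopologicalSpace M] (f : C(M, M)) :
    Module.End ℝ (Hstar m M) :=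
  DirectSum.lmap fun k => ((H k).map (TopCat.ofHom f)).hom

/-- `r` is the largest modulus of a complex eigenvalue of the real linear map `T`. -/
def IsSpectralRadius {V : Type} [AddCommGroup V] [Module ℝ V] (T : Module.End ℝ V) (r : ℝ) :
    Prop :=
  IsGreatest {s | ∃ l : ℂ, Module.End.HasEigenvalue (T.baseChange ℂ) l ∧ ‖l‖ = s} r

/-- `H_*(M; ℝ)` is finite-dimensional, and `M` carries `C^1` maps of zero entropy whose action on
`H_*(M; ℝ)` has arbitrarily large spectral radius. -/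
def Fails (m : ℕ) (M : Type) [MetricSpace M] [ChartedSpace (EuclideanSpace ℝ (Fin m)) M] : Prop :=
  FiniteDimensional ℝ (Hstar m M) ∧ ∀ R : ℝ, ∃ f : C(M, M), ContMDiff (𝓡 m) (𝓡 m) 1 f ∧
    IsTopEntropy f 0 ∧ Dynamics.coverEntropy f Set.univ = 0 ∧
    ∃ ρ, IsSpectralRadius (fstar m f) ρ ∧ R ≤ ρ

end Vale.Agent.N103.Def
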