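import Vale.Agent.N103.Map

/-!
# P103: separated sets of the map on `S³ × S² × S^(2p)` grow polynomially
-/

namespace Vale.Agent.N103

open Filter Topology Vale.Agent.P103

theorem semi_iter {A B : Type} {g : A → A} {f : B → B} {π : A → B} {Q : A → Prop}
    (h : ∀ x, Q x → π (g x) = f (π x)) (x : A) (j : ℕ) (hj : ∀ i < j, Q (g^[i] x)) :
    π (g^[j] x) = f^[j] (π x) := by
  induction j with
  | zero => rfl
  | succ j ih =>
    rw [Function.iterate_succ_apply', Function.iterate_succ_apply', h _ (hj j j.lt_succ_self),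
      ih fun i hi => hj i (hi.trans j.lt_succ_self)]

theorem near {a b : ℂ} (h : ‖a‖ ^ 2 + ‖b‖ ^ 2 = 1) : ‖b - ang b‖ ≤ ‖a‖ := by
  have h1 : b - ang b = ((‖b‖ - 1 : ℝ) : ℂ) * ang b := by
    push_cast
    rw [sub_mul, norm_mul_ang, one_mul]
  have ha := norm_nonneg a
  have hb := norm_nonneg b
  rw [h1, norm_mul, Circle.norm_coe, mul_one, Complex.norm_real, Real.norm_eq_abs, abs_le]
  constructor <;> nlinarith

theorem close {a b a' b' : ℂ} {δ η : ℝ} (h : ‖a‖ ^ 2 + ‖b‖ ^ 2 = 1) (h' : ‖a'‖ ^ 2 + ‖b'‖ ^ 2 = 1)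
    (hδ : 0 ≤ δ) (h1 : ‖a‖ ≤ δ * ‖b‖) (h2 : ‖a'‖ ≤ δ * ‖b'‖) (h3 : dist (ang b) (ang b') ≤ η) :
    ‖a - a'‖ + ‖b - b'‖ ≤ 4 * δ + η := by
  have k : ∀ {a b : ℂ}, ‖a‖ ^ 2 + ‖b‖ ^ 2 = 1 → ‖a‖ ≤ δ * ‖b‖ → ‖a‖ ≤ δ := fun {a b} h h1 =>
    h1.trans (mul_le_of_le_one_right hδ (by nlinarith [norm_nonneg a, norm_nonneg b]))
  have e1 := near h
  have e2 := near h'
  have e3 := norm_sub_le a a'
  have e4 : ‖b - b'‖ ≤ ‖b - ang b‖ + ‖(ang b : ℂ) - ang b'‖ + ‖b' - ang b'‖ := by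
    rw [norm_sub_rev b']
    simpa only [dist_eq_norm] using dist_triangle4 b (ang b) (ang b') b'
  have e5 : ‖(ang b : ℂ) - ang b'‖ ≤ η := by
    rw [← dist_eq_norm]
    exact h3
  linarith [k h h1, k h' h2]

theorem small {a b : ℂ} {δ : ℝ} (h : ‖a‖ ^ 2 + ‖b‖ ^ 2 = 1) (hδ : δ ≤ 1 / 2)
    (h1 : ‖a‖ ≤ δ * ‖b‖) : ‖a‖ ^ 2 ≤ 1 / 4 ∧ b ≠ 0 := by
  have ha := norm_nonneg a
  have hb := norm_nonneg b
  have h2 : ‖a‖ ≤ 1 / 2 * ‖b‖ := h1.trans (mul_le_mul_of_nonneg_right hδ hb)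
  have h3 : ‖a‖ ^ 2 ≤ 1 / 4 := by nlinarith
  refine ⟨h3, fun h0 => ?_⟩
  rw [h0, norm_zero] at h
  linarith

variable (P : Par)

theorem gM_iter_fst (x : S3 × Y P) (j : ℕ) : ((gM P)^[j] x).1 = (RR P.ω)^[j] x.1 :=
  semi_iter (Q := fun _ => True) (π := Prod.fst) (fun _ _ => rfl) x j fun _ _ => trivial

theorem ang_z (x : S3 × Y P) (j : ℕ) (h : zz ((gM P)^[j] x).1 ≠ 0) :
    ang (zz ((gM P)^[j] x).1) = P.ω ^ j * ang (zz x.1) := by
  obtain ⟨c, hc, h1, -⟩ := RR_iter P.ω x.1 j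
  rw [gM_iter_fst, h1] at h ⊢
  exact ang_mul (by positivity) _ (right_ne_zero_of_mul h)

theorem ang_w (x : S3 × Y P) (j : ℕ) (h : ww ((gM P)^[j] x).1 ≠ 0) :
    ang (ww ((gM P)^[j] x).1) = P.ω ^ j * ang (ww x.1) := by
  obtain ⟨c, hc, -, h1⟩ := RR_iter P.ω x.1 j
  rw [gM_iter_fst, h1] at h ⊢
  exact ang_mul hc _ (right_ne_zero_of_mul h)

theorem phase {δ : ℝ} (hδ : 0 < δ) {T : ℕ} (hT : 1 ≤ δ ^ 2 * 2 ^ T) (x : S3 × Y P) {i j : ℕ}
    (h : ¬ ‖zz ((gM P)^[i] x).1‖ ≤ δ * ‖ww ((gM P)^[i] x).1‖) (hj : i + T ≤ j) :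
    ‖ww ((gM P)^[j] x).1‖ ≤ δ * ‖zz ((gM P)^[j] x).1‖ := by
  obtain ⟨c, hc, h1, h2⟩ := RR_iter P.ω x.1 i
  obtain ⟨d, hd, h3, h4⟩ := RR_iter P.ω x.1 j
  rw [gM_iter_fst, h1, h2, not_le] at h
  rw [gM_iter_fst, h3, h4]
  simp only [norm_mul, Circle.norm_coe, mul_one, Complex.norm_real, Real.norm_eq_abs,
    abs_of_pos hc, abs_of_pos hd, abs_of_pos (show (0 : ℝ) < 2 ^ i by positivity),
    abs_of_pos (show (0 : ℝ) < 2 ^ j by positivity)] at h ⊢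
  have h5 : δ * ‖ww x.1‖ ≤ 2 ^ i * ‖zz x.1‖ :=
    le_of_mul_le_mul_left (by linarith) hc
  have h6 : (2 : ℝ) ^ i * 2 ^ T ≤ 2 ^ j := by
    rw [← pow_add]
    exact pow_le_pow_right₀ one_le_two hj
  have h7 : ‖ww x.1‖ ≤ δ * (2 ^ j * ‖zz x.1‖) := by
    calc ‖ww x.1‖ ≤ δ ^ 2 * 2 ^ T * ‖ww x.1‖ := le_mul_of_one_le_left (norm_nonneg _) hT
      _ = δ * 2 ^ T * (δ * ‖ww x.1‖) := by ring
      _ ≤ δ * 2 ^ T * (2 ^ i * ‖zz x.1‖) := by gcongr
      _ = δ * (2 ^ i * 2 ^ T * ‖zz x.1‖) := by ring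
      _ ≤ _ := by gcongr
  nlinarith [mul_le_mul_of_nonneg_left h7 hd.le]

theorem gM_poly : Poly (gM P) := by
  classical
  intro ε hε
  obtain ⟨T, U, hU, hT⟩ := P.fM_exceptional hε
  obtain ⟨δ, hδ, hδ1, hδ2⟩ : ∃ δ : ℝ, 0 < δ ∧ δ ≤ 1 / 2 ∧ δ ≤ ε / 8 :=
    ⟨min (1 / 2) (ε / 8), by positivity, min_le_left _ _, min_le_right _ _⟩
  obtain ⟨T0, hT0⟩ := pow_unbounded_of_one_lt (1 / δ ^ 2) (one_lt_two (α := ℝ))
  have hT1 : 1 ≤ δ ^ 2 * 2 ^ T0 := by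
    rw [div_lt_iff₀ (by positivity)] at hT0
    linarith
  obtain ⟨N, net, hnet⟩ := exists_net (S3 × Y P) hε
  obtain ⟨L, nc, hnc⟩ := exists_net Circle (half_pos hε)
  refine ⟨L * L * (N + 1) ^ (T + T0 + T), T + T0 + T + 2, fun n E hE => ?_⟩
  set g := gM P with hg
  let Q2 : S3 × Y P → Prop := fun x => ‖zz x.1‖ ≤ δ * ‖ww x.1‖
  let Q1 : S3 × Y P → Prop := fun x => ‖ww x.1‖ ≤ δ * ‖zz x.1‖
  have e1 : ∀ x, ∃ j, j = n ∨ ¬ Q2 (g^[j] x) := fun x => ⟨n, Or.inl rfl⟩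
  have e2 : ∀ x, ∃ j, j = n ∨ (g^[j] x).2 = (nor, sou) := fun x => ⟨n, Or.inl rfl⟩
  let a : S3 × Y P → Fin (n + 1) := fun x =>
    ⟨Nat.find (e1 x), Nat.lt_succ_of_le (Nat.find_min' _ (Or.inl rfl))⟩
  let q : S3 × Y P → Fin (n + 1) := fun x =>
    ⟨Nat.find (e2 x), Nat.lt_succ_of_le (Nat.find_min' _ (Or.inl rfl))⟩
  have ha2 : ∀ x j, j < (a x : ℕ) → Q2 (g^[j] x) := fun x j hj =>
    not_not.1 fun h => Nat.find_min (e1 x) hj (Or.inr h)
  have ha1 : ∀ x, ∀ j < n, (a x : ℕ) + T0 ≤ j → Q1 (g^[j] x) := fun x j hj h =>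
    phase P hδ hT1 x ((Nat.find_spec (e1 x)).resolve_left (by change (a x : ℕ) ≠ n; omega)) h
  have hq : ∀ x, ∀ j < n, ((g^[j] x).2 = (nor, sou) ↔ (q x : ℕ) ≤ j) := by
    refine fun x j hj => ⟨fun h => Nat.find_min' (e2 x) (Or.inr h), fun h => ?_⟩
    have h0 : (g^[q x] x).2 = (nor, sou) :=
      (Nat.find_spec (e2 x)).resolve_left (by change (q x : ℕ) ≠ n; omega)
    clear hj
    induction j, h using Nat.le_induction with
    | base => exact h0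
    | succ j _ ih =>
      rw [Function.iterate_succ_apply']
      exact gM_nor P ih
  have s2 : ∀ x, Q2 x → (ang (ww (g x).1), (g x).2) = P.fM (ang (ww x.1), x.2) := by
    intro x hx
    obtain ⟨h1, h2⟩ := small (zw x.1) hδ1 hx
    obtain ⟨c, hc, -, h3⟩ := RR_iter P.ω x.1 1
    refine Prod.ext ?_ (gM_w P h1)
    change ang (ww ((RR P.ω)^[1] x.1)) = _
    rw [h3, ang_mul hc _ h2, pow_one]
    rfl
  have s1 : ∀ x, Q1 x → (ang (zz (g x).1), (g x).2) = P.fM (ang (zz x.1), x.2) := by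
    intro x hx
    obtain ⟨h1, h2⟩ := small ((add_comm _ _).trans (zw x.1)) hδ1 hx
    obtain ⟨c, hc, h3, -⟩ := RR_iter P.ω x.1 1
    refine Prod.ext ?_ (gM_z P h1)
    change ang (zz ((RR P.ω)^[1] x.1)) = _
    rw [h3, ang_mul (by positivity) _ h2, pow_one]
    rfl
  have hB : ∀ x, ∃ B : Finset ℕ, B.card ≤ T + T0 + T ∧ ∀ j < n, j ∉ B →
      (j < (a x : ℕ) ∨ (a x : ℕ) + T0 ≤ j) ∧
        ((g^[j] x).2 ∈ U ∨ (g^[j] x).2 = (nor, sou)) := by
    intro x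
    set k : ℕ := a x + T0 with hk
    obtain ⟨E1, c1, d1⟩ := hT (ang (ww x.1), x.2) n
    obtain ⟨E2, c2, d2⟩ := hT (ang (zz (g^[k] x).1), (g^[k] x).2) n
    refine ⟨E1 ∪ Finset.Ico (a x) k ∪ E2.image (· + k), ?_, fun j hj hjB => ?_⟩
    · refine (Finset.card_union_le _ _).trans (add_le_add ((Finset.card_union_le _ _).trans
        (add_le_add c1 ?_)) (Finset.card_image_le.trans c2))
      simp [hk]
    simp only [Finset.mem_union, Finset.mem_Ico, Finset.mem_image, not_or, not_and, not_lt,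
      not_exists] at hjB
    rcases lt_or_ge j (a x) with h | h
    · have h1 := semi_iter (π := fun x : S3 × Y P => (ang (ww x.1), x.2)) s2 x j
        fun i hi => ha2 x i (hi.trans h)
      have h2 := d1 j hj hjB.1.1
      rw [← h1] at h2
      exact ⟨Or.inl h, h2⟩
    · obtain ⟨m, rfl⟩ := Nat.exists_eq_add_of_le' (hjB.1.2 h)
      have h1 := semi_iter (π := fun x : S3 × Y P => (ang (zz x.1), x.2)) s1 (g^[k] x) m
        fun i hi => by
          rw [← Function.iterate_add_apply]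
          exact ha1 x _ (by omega) (by omega)
      have h2 := d2 m (by omega) fun hm => hjB.2 m hm rfl
      rw [← h1, ← Function.iterate_add_apply] at h2
      exact ⟨Or.inr (by omega), h2⟩
  choose B hB1 hB2 using hB
  have hrot : ∀ (j : ℕ) (u v : Circle), nc u = nc v → dist (P.ω ^ j * u) (P.ω ^ j * v) ≤ ε / 2 :=
    fun j u v h => ((isometry_rot _).dist_eq u v).trans_le (hnc u v h)
  have main := code_bound hε net hnet
    (fun x => (nc (ang (zz x.1)), nc (ang (ww x.1)), a x, q x)) B hB1 (f := g) (n := n) (by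
      intro x y hxy j hj hx hy
      simp only [Prod.mk.injEq] at hxy
      obtain ⟨k1, k2, k3, k4⟩ := hxy
      obtain ⟨x1, x2⟩ := hB2 x j hj hx
      obtain ⟨-, y2⟩ := hB2 y j hj hy
      rw [Prod.dist_eq]
      refine max_le ((dist_S3 _ _).trans ?_) ?_
      · rcases x1 with h | h
        · have u := ha2 x j h
          have v := ha2 y j (k3 ▸ h)
          refine (close (η := ε / 2) (zw _) (zw _) hδ.le u v ?_).trans (by linarith)
          rw [ang_w P x j (small (zw _) hδ1 u).2, ang_w P y j (small (zw _) hδ1 v).2]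
          exact hrot j _ _ k2
        · have u := ha1 x j hj h
          have v := ha1 y j hj (k3 ▸ h)
          have zw' : ∀ s, ‖ww s‖ ^ 2 + ‖zz s‖ ^ 2 = 1 := fun s => (add_comm _ _).trans (zw s)
          rw [add_comm]
          refine (close (η := ε / 2) (zw' _) (zw' _) hδ.le u v ?_).trans (by linarith)
          rw [ang_z P x j (small (zw' _) hδ1 u).2, ang_z P y j (small (zw' _) hδ1 v).2]
          exact hrot j _ _ k1
      · by_cases h : (q x : ℕ) ≤ j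
        · rw [(hq x j hj).2 h, (hq y j hj).2 (k4 ▸ h), dist_self]
          exact hε.le
        · exact hU _ (x2.resolve_right fun e => h ((hq x j hj).1 e)) _
            (y2.resolve_right fun e => h (k4 ▸ (hq y j hj).1 e))) hE
  refine main.trans ?_
  simp only [Fintype.card_prod, Fintype.card_fin]
  have h1 : n * N + 1 ≤ (N + 1) * (n + 1) := by nlinarith
  calc L * (L * ((n + 1) * (n + 1))) * (n * N + 1) ^ (T + T0 + T)
      ≤ L * (L * ((n + 1) * (n + 1))) * ((N + 1) * (n + 1)) ^ (T + T0 + T) := by gcongr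
    _ = _ := by rw [mul_pow]; ring

end Vale.Agent.N103
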