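import Vale.Agent.N103.Defs
import Vale.Agent.N103.Dyn
import Vale.Agent.P103F2.Main
import Vale.Agent.P216.H347.SCS

/-!
# P103: a simply connected counterexample, and the manifolds which retract onto it
-/

namespace Vale.Agent.N103

open Filter Topology Set Vale.Agent.P103
open scoped Manifold ContDiff

theorem simplyConnected_prod {X Z : Type} [TopologicalSpace X] [TopologicalSpace Z]
    (hX : SimplyConnectedSpace X) (hZ : SimplyConnectedSpace Z) : SimplyConnectedSpace (X × Z) := by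
  rw [simply_connected_iff_paths_homotopic']
  refine ⟨inferInstance, fun {x y} p q => ?_⟩
  obtain ⟨h1⟩ := SimplyConnectedSpace.paths_homotopic (p.map continuous_fst) (q.map continuous_fst)
  obtain ⟨h2⟩ := SimplyConnectedSpace.paths_homotopic (p.map continuous_snd) (q.map continuous_snd)
  exact ⟨Path.Homotopic.prodHomotopy h1 h2⟩

theorem simplyConnected_sph {E : Type} [NormedAddCommGroup E] [InnerProductSpace ℝ E] {n : ℕ}
    (h : Module.finrank ℝ E = n + 1) (hn : 2 ≤ n) : SimplyConnectedSpace (Metric.sphere (0 : E) 1) :=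
  have : FiniteDimensional ℝ E := FiniteDimensional.of_finrank_pos (by omega)
  P216.SCS.simplyConnected_of_finrank (by omega)

theorem le_of_retract {m k : ℕ} {M N : Type} [TopologicalSpace M] [Nonempty M]
    [ChartedSpace (EuclideanSpace ℝ (Fin m)) M] [TopologicalSpace N]
    [ChartedSpace (EuclideanSpace ℝ (Fin k)) N] {i : M → N} {r : N → M}
    (hi : ContMDiff (𝓡 m) (𝓡 k) 1 i) (hr : ContMDiff (𝓡 k) (𝓡 m) 1 r) (h : ∀ x, r (i x) = x) :
    m ≤ k := by
  obtain ⟨x⟩ := ‹Nonempty M›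
  have h1 := mfderiv_comp x (hr.mdifferentiableAt one_ne_zero) (hi.mdifferentiableAt one_ne_zero)
  rw [show r ∘ i = id from funext h, mfderiv_id] at h1
  let A : EuclideanSpace ℝ (Fin m) →L[ℝ] EuclideanSpace ℝ (Fin k) := mfderiv (𝓡 m) (𝓡 k) i x
  let B : EuclideanSpace ℝ (Fin k) →L[ℝ] EuclideanSpace ℝ (Fin m) := mfderiv (𝓡 k) (𝓡 m) r (i x)
  have h2 : Function.LeftInverse B A := fun v => (DFunLike.congr_fun h1 v).symm
  simpa using LinearMap.finrank_le_finrank_of_injective (f := A.toLinearMap) h2.injective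

theorem core : ∃ (m : ℕ) (M : Type) (_ : MetricSpace M)
    (_ : ChartedSpace (EuclideanSpace ℝ (Fin m)) M), IsManifold (𝓡 m) ∞ M ∧ CompactSpace M ∧
    SimplyConnectedSpace M ∧ 2 ≤ m ∧ ∃ f : C(M, M), ContMDiff (𝓡 m) (𝓡 m) 1 f ∧ Poly f ∧
      ∃ x, x ≠ 0 ∧ homologyMap 2 f x = (2 : ℝ) • x := by
  obtain ⟨P⟩ := exists_Par
  let L : (EuclideanSpace ℝ (Fin 3) × EuclideanSpace ℝ (Fin 2) × EuclideanSpace ℝ (Fin (2 * P.p)))
      ≃L[ℝ] EuclideanSpace ℝ (Fin (2 * P.p + 5)) :=
    ContinuousLinearEquiv.ofFinrankEq (by simp; omega)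
  have h0 : ((II P).transContinuousLinearEquiv L).Boundaryless :=
    ⟨by rw [ModelWithCorners.transContinuousLinearEquiv_range,
      ModelWithCorners.range_eq_univ, image_univ, L.surjective.range_eq]⟩
  obtain ⟨c, h4, h5⟩ := P103F2.rechart (M := S3 × Y P) ((II P).transContinuousLinearEquiv L)
  refine ⟨2 * P.p + 5, S3 × Y P, _, c, h4, inferInstance, ?_, by omega, gC P, h5 _ ?_, gM_poly P,
    exists_eigen P⟩
  · exact simplyConnected_prod (simplyConnected_sph factS3.out (by norm_num))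
      (simplyConnected_prod (simplyConnected_sph factS2.out le_rfl)
        (simplyConnected_sph P.factSm.out (by have := P.nt.two_le; omega)))
  · rw [L.contMDiff_transContinuousLinearEquiv_left, L.contMDiff_transContinuousLinearEquiv_right]
    exact gM_contMDiff P

theorem main : ∃ (m : ℕ) (M : Type) (_ : MetricSpace M)
    (_ : ChartedSpace (EuclideanSpace ℝ (Fin m)) M), IsManifold (𝓡 m) ∞ M ∧ CompactSpace M ∧
    SimplyConnectedSpace M ∧
    ∀ (k : ℕ) (N : Type) [MetricSpace N] [ChartedSpace (EuclideanSpace ℝ (Fin k)) N]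
      [IsManifold (𝓡 k) ∞ N] [CompactSpace N] (i : M → N) (r : N → M),
      ContMDiff (𝓡 m) (𝓡 k) 1 i → ContMDiff (𝓡 k) (𝓡 m) 1 r → (∀ x, r (i x) = x) →
      FiniteDimensional ℝ (Def.Hstar k N) ∧ ∀ R : ℝ, ∃ f : C(N, N), ContMDiff (𝓡 k) (𝓡 k) 1 f ∧
        Def.IsTopEntropy f 0 ∧ Dynamics.coverEntropy f Set.univ = 0 ∧
        ∃ ρ, Def.IsSpectralRadius (Def.fstar k f) ρ ∧ R ≤ ρ := by
  obtain ⟨m, M, _, _, h1, h2, h3, h4, f, h5, h6, x, h7, h8⟩ := core
  refine ⟨m, M, _, _, h1, h2, h3, fun k N _ _ _ _ i r hi hr h => ?_⟩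
  have hne : Nonempty N := ⟨i (Classical.arbitrary M)⟩
  have hN : P103F2.IsClosedManifold k N := ⟨inferInstance, inferInstance, inferInstance, hne⟩
  have hk := le_of_retract hi hr h
  refine ⟨(P103F2.well_defined hN (ContinuousMap.id N)).1, fun R => ?_⟩
  obtain ⟨n, hn⟩ := pow_unbounded_of_one_lt R (one_lt_two (α := ℝ))
  let ic : C(M, N) := ⟨i, hi.continuous⟩
  let rc : C(N, M) := ⟨r, hr.continuous⟩
  let g : C(N, N) := ic.comp ((H308.powC f (n + 1)).comp rc)
  have hg : IsTopEntropy g 0 :=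
    isTopEntropy_zero_of_poly _ ((h6.iter n.succ_pos).retract hi.continuous h)
  have hri : ∀ y, Hm.hm 2 rc (Hm.hm 2 ic y) = y := fun y => by
    rw [← Hm.hm_comp, show rc.comp ic = ContinuousMap.id M from ContinuousMap.ext h, Hm.hm_id]
  have hw := (P103F2.well_defined hN g).2.1
  refine ⟨g, hi.comp ((H308.contMDiff_iter h5 _).comp hr), hg, coverEntropy_zero hg, _, hw,
    (hn.le.trans (pow_le_pow_right₀ one_le_two n.le_succ)).trans
      (hw.2 (P103F2.mem_fstar ⟨2, by omega⟩ (x := Hm.hm 2 ic x) (fun h0 => h7 ?_)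
        (by positivity) ?_))⟩
  · rw [← hri x, h0, map_zero]
  · change Hm.hm 2 g _ = _
    rw [Hm.hm_comp, Hm.hm_comp, hri]
    exact (congrArg _ (H308.homologyMap_powC f 2 x h8 (n + 1))).trans (map_smul _ _ _)

end Vale.Agent.N103
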