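import Vale.Agent.N103.Code

/-!
# P103: the map on `S³ × S² × S^(2p)`
-/

namespace Vale.Agent.N103

open Filter Topology Vale.Agent.P103
open scoped Manifold

abbrev E4 : Type := WithLp 2 (ℂ × ℂ)

abbrev S3 : Type := Metric.sphere (0 : E4) 1

instance factS3 : Fact (Module.finrank ℝ E4 = 3 + 1) := ⟨by
  rw [(WithLp.linearEquiv 2 ℝ (ℂ × ℂ)).finrank_eq, Module.finrank_prod,
    Complex.finrank_real_complex]⟩

def zz (s : S3) : ℂ := s.1.fst

def ww (s : S3) : ℂ := s.1.snd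

theorem zw (s : S3) : ‖zz s‖ ^ 2 + ‖ww s‖ ^ 2 = 1 := by
  have h := mem_sphere_zero_iff_norm.mp s.2
  have h2 := WithLp.prod_norm_sq_eq_of_L2 s.1
  rw [h] at h2
  simpa [zz, ww] using h2.symm

theorem contMDiff_zz : ContMDiff (𝓡 3) 𝓘(ℝ, ℂ) 1 zz :=
  (contDiff_fst.comp (WithLp.prodContinuousLinearEquiv 2 ℝ ℂ ℂ).contDiff).contMDiff.comp
    contMDiff_coe_sphere

theorem contMDiff_ww : ContMDiff (𝓡 3) 𝓘(ℝ, ℂ) 1 ww :=
  (contDiff_snd.comp (WithLp.prodContinuousLinearEquiv 2 ℝ ℂ ℂ).contDiff).contMDiff.comp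
    contMDiff_coe_sphere

theorem dist_S3 (s t : S3) : dist s t ≤ ‖zz s - zz t‖ + ‖ww s - ww t‖ := by
  rw [Subtype.dist_eq, dist_eq_norm]
  have h := WithLp.prod_norm_sq_eq_of_L2 (s.1 - t.1)
  refine le_of_sq_le_sq (h.le.trans ?_) (by positivity)
  change ‖zz s - zz t‖ ^ 2 + ‖ww s - ww t‖ ^ 2 ≤ _
  nlinarith [norm_nonneg (zz s - zz t), norm_nonneg (ww s - ww t)]

def LL (ω : Circle) (x : E4) : E4 := WithLp.toLp 2 (2 * ω * x.fst, ω * x.snd)

theorem LL_ne (ω : Circle) (s : S3) : LL ω s.1 ≠ 0 := by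
  intro h
  have h1 : 2 * ω * zz s = 0 := congrArg WithLp.fst h
  have h2 : ω * ww s = 0 := congrArg WithLp.snd h
  have h3 := zw s
  simp only [mul_eq_zero, OfNat.ofNat_ne_zero, Circle.coe_ne_zero, or_self, false_or] at h1 h2
  simp [h1, h2] at h3

noncomputable def RR (ω : Circle) (s : S3) : S3 :=
  ⟨‖LL ω s.1‖⁻¹ • LL ω s.1, by simp [norm_smul, LL_ne ω s]⟩

theorem contMDiff_RR (ω : Circle) : ContMDiff (𝓡 3) (𝓡 3) 1 (RR ω) := by
  have h1 : ContDiff ℝ 1 (LL ω) :=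
    (WithLp.prodContinuousLinearEquiv 2 ℝ ℂ ℂ).symm.contDiff.comp
      ((contDiff_const.mul (contDiff_fst.comp
        (WithLp.prodContinuousLinearEquiv 2 ℝ ℂ ℂ).contDiff)).prodMk
      (contDiff_const.mul (contDiff_snd.comp (WithLp.prodContinuousLinearEquiv 2 ℝ ℂ ℂ).contDiff)))
  have h2 : ContMDiff (𝓡 3) 𝓘(ℝ, E4) 1 fun s : S3 => ‖LL ω s.1‖⁻¹ • LL ω s.1 := fun s => by
    have h3 : ContDiffAt ℝ 1 (fun x => ‖LL ω x‖⁻¹ • LL ω x) s.1 :=
      ((h1.contDiffAt.norm ℝ (LL_ne ω s)).inv (norm_ne_zero_iff.2 (LL_ne ω s))).smul h1.contDiffAt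
    exact h3.contMDiffAt.comp s contMDiff_coe_sphere.contMDiffAt
  exact h2.codRestrict_sphere fun s => (RR ω s).2

theorem RR_iter (ω : Circle) (s : S3) (j : ℕ) : ∃ c : ℝ, 0 < c ∧
    zz ((RR ω)^[j] s) = (c * 2 ^ j : ℝ) * (ω ^ j : Circle) * zz s ∧
    ww ((RR ω)^[j] s) = c * (ω ^ j : Circle) * ww s := by
  induction j with
  | zero => exact ⟨1, one_pos, by simp, by simp⟩
  | succ j ih =>
    obtain ⟨c, hc, h1, h2⟩ := ih
    rw [Function.iterate_succ_apply']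
    set t := (RR ω)^[j] s
    have h0 := norm_pos_iff.2 (LL_ne ω t)
    refine ⟨‖LL ω t.1‖⁻¹ * c, by positivity, ?_, ?_⟩
    · change ‖LL ω t.1‖⁻¹ • (2 * ω * zz t) = _
      rw [h1, Complex.real_smul, pow_succ ω]
      push_cast
      ring
    · change ‖LL ω t.1‖⁻¹ • (ω * ww t) = _
      rw [h2, Complex.real_smul, pow_succ ω]
      push_cast
      ring

noncomputable def ang (z : ℂ) : Circle := Circle.exp (Complex.arg z)

theorem norm_mul_ang (z : ℂ) : (‖z‖ : ℂ) * ang z = z := Complex.norm_mul_exp_arg_mul_I z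

theorem ang_eq {r : ℝ} (hr : 0 < r) (ζ : Circle) : ang (r * ζ) = ζ := by
  have h := norm_mul_ang (r * ζ)
  rw [norm_mul, Circle.norm_coe, mul_one, Complex.norm_real, Real.norm_of_nonneg hr.le] at h
  exact Circle.ext (mul_left_cancel₀ (by exact_mod_cast hr.ne') h)

theorem ang_mul {r : ℝ} (hr : 0 < r) (ζ : Circle) {z : ℂ} (hz : z ≠ 0) :
    ang (r * ζ * z) = ζ * ang z := by
  rw [← ang_eq (mul_pos hr (norm_pos_iff.2 hz)) (ζ * ang z)]
  congr 1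
  conv_lhs => rw [← norm_mul_ang z]
  push_cast
  ring

theorem contMDiffAt_ang {z : ℂ} (hz : z ≠ 0) : ContMDiffAt 𝓘(ℝ, ℂ) (𝓡 1) 1 ang z := by
  have h1 : ContDiffAt ℝ 1 (fun u : ℂ => (Complex.log (u * z⁻¹)).im) z := by
    have : ContDiffAt ℝ 1 Complex.log (z * z⁻¹) := by
      refine (Complex.contDiffAt_log ?_).restrict_scalars ℝ
      rw [mul_inv_cancel₀ hz]
      simp
    exact Complex.imCLM.contDiff.contDiffAt.comp _
      (this.comp z (contDiffAt_id.mul contDiffAt_const))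
  have h2 : ContMDiffAt 𝓘(ℝ, ℂ) (𝓡 1) 1
      (fun u : ℂ => ang z * Circle.exp (Complex.log (u * z⁻¹)).im) z :=
    (contMDiff_mul_left (I := 𝓡 1) (n := 1) (a := ang z)).contMDiffAt.comp z
      (contMDiff_circleExp.contMDiffAt.comp z h1.contMDiffAt)
  refine h2.congr_of_eventuallyEq ?_
  filter_upwards [isOpen_ne.mem_nhds hz] with u hu
  rw [Complex.log_im]
  have h3 := ang_mul (norm_pos_iff.2 hz) (ang z) (mul_ne_zero hu (inv_ne_zero hz))
  rw [norm_mul_ang, mul_comm u, mul_inv_cancel_left₀ hz, mul_comm z⁻¹] at h3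
  exact h3

noncomputable def tt (z : ℂ) : ℝ := Real.smoothTransition (4 * ‖z‖ ^ 2 - 2)

theorem tt_zero {z : ℂ} (h : ‖z‖ ^ 2 ≤ 1 / 2) : tt z = 0 :=
  Real.smoothTransition.zero_of_nonpos (by linarith)

theorem tt_one {z : ℂ} (h : 3 / 4 ≤ ‖z‖ ^ 2) : tt z = 1 :=
  Real.smoothTransition.one_of_one_le (by linarith)

theorem contDiff_tt : ContDiff ℝ 1 tt :=
  (Real.smoothTransition.contDiff (n := 1)).comp
    ((contDiff_const.mul (contDiff_norm_sq ℝ)).sub contDiff_const)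

variable (P : Par)

abbrev Y : Type := Sph ℂ × Sph P.V

noncomputable def GG (y : S3 × Y P) : P.V :=
  tt (zz y.1) • P.G (ang (zz y.1)) y.2.1 y.2.2 + tt (ww y.1) • P.G (ang (ww y.1)) y.2.1 y.2.2 +
    (1 - tt (zz y.1) - tt (ww y.1)) • (32 * st y.2.1 ^ 2) • P.bas 0

noncomputable def gM (y : S3 × Y P) : S3 × Y P :=
  open Classical in
  (RR P.ω y.1, if ht y.2.1 < -(3 / 4) then (E2 (GG P y 0), ist (P.hat (GG P y))) else (nor, sou))

theorem gM_z {y : S3 × Y P} (h : ‖ww y.1‖ ^ 2 ≤ 1 / 4) :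
    (gM P y).2 = P.fib (ang (zz y.1)) y.2.1 y.2.2 := by
  have h1 := zw y.1
  simp [gM, GG, Par.fib, tt_one (z := zz y.1) (by linarith), tt_zero (z := ww y.1) (by linarith)]

theorem gM_w {y : S3 × Y P} (h : ‖zz y.1‖ ^ 2 ≤ 1 / 4) :
    (gM P y).2 = P.fib (ang (ww y.1)) y.2.1 y.2.2 := by
  have h1 := zw y.1
  simp [gM, GG, Par.fib, tt_one (z := ww y.1) (by linarith), tt_zero (z := zz y.1) (by linarith)]

theorem gM_nor {y : S3 × Y P} (h : y.2 = (nor, sou)) : (gM P y).2 = (nor, sou) := by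
  have : ¬ ht y.2.1 < -(3 / 4) := by
    rw [h, show ht (nor : Sph ℂ) = 1 from rfl]
    norm_num
  simp [gM, this]

theorem G_far (ζ : Circle) (x : Sph ℂ) (w : Sph P.V) (hz : 1 / 4 ≤ ‖st x‖) :
    ∃ r : ℝ, 2 ≤ r ∧ P.G ζ x w = ((r : ℂ) * (st x / ‖st x‖) ^ 2) • P.bas 0 := by
  have h8 : P.G ζ x w = P.W ζ (st x) := by
    rw [Par.G]
    split_ifs with h9
    · rfl
    · have h7 := P.A_le ζ
      have h8 := P.A_nonneg ζ
      have h9 := sq_nonneg ‖st w‖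
      exact P.F_eq_W _ _ _ (by nlinarith) (by nlinarith)
  rw [h8]
  set z := st x
  have hA := P.A_nonneg ζ
  have hA1 := P.A_le_small ζ
  have hA2 := P.A_le_small (P.ω * ζ)
  have hΛ := P.cc_Λ_ge
  have hz' : 0 < ‖z‖ := by linarith only [hz]
  have hz0 : z ≠ 0 := norm_pos_iff.mp hz'
  have ha : 1 / 4 ≤ P.A ζ + ‖z‖ := by linarith only [hz, hA]
  have hG : 3 ≤ P.Gam ζ (P.A ζ + ‖z‖) := by
    unfold Par.Gam
    have h1 := RW.le_mx_right (Hm.nu_nonneg ζ)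
      (RW.beta_pos (a := P.A ζ + ‖z‖) (by linarith only [hA, hz']))
    have h2 := cc_beta_ge ha
    have h3 : 1 / 8 ≤ mx (nu ζ) (beta (P.A ζ + ‖z‖)) := by linarith only [h1, h2]
    calc (3 : ℝ) ≤ 1000 * (1 / 8) * (1 / 4) := by norm_num
      _ ≤ P.Λ * mx (nu ζ) (beta (P.A ζ + ‖z‖)) * (P.A ζ + ‖z‖) := by gcongr
  rw [P.cc_W_of_le hz0 (by linarith only [hz, hA1]), P.e_big (by linarith only [hG])
    (by linarith only [hA2, hG]) (Par.cc_unit_sq hz0)]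
  refine ⟨_, ?_, rfl⟩
  rw [Par.cc_S_mul (by linarith only [hG]) (by linarith only [hA2, hG])]
  linarith only [hA2, hG]

theorem GG_far (y : S3 × Y P) (hz : 1 / 4 ≤ ‖st y.2.1‖) :
    2 ≤ ‖GG P y 0‖ ∧ P.hat (GG P y) = 0 := by
  obtain ⟨r1, a1, b1⟩ := G_far P (ang (zz y.1)) y.2.1 y.2.2 hz
  obtain ⟨r2, a2, b2⟩ := G_far P (ang (ww y.1)) y.2.1 y.2.2 hz
  have hz0 : st y.2.1 ≠ 0 := norm_pos_iff.mp (by linarith)
  have hn : (‖st y.2.1‖ : ℂ) ≠ 0 := by exact_mod_cast norm_ne_zero_iff.2 hz0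
  have h1 : 0 ≤ tt (zz y.1) := Real.smoothTransition.nonneg _
  have h2 : 0 ≤ tt (ww y.1) := Real.smoothTransition.nonneg _
  have h3 : tt (zz y.1) + tt (ww y.1) ≤ 1 := by
    have h4 : tt (zz y.1) ≤ 1 := Real.smoothTransition.le_one _
    have h5 : tt (ww y.1) ≤ 1 := Real.smoothTransition.le_one _
    have h6 := zw y.1
    rcases le_total (‖zz y.1‖ ^ 2) (1 / 2) with h | h
    · linarith [tt_zero h]
    · linarith [tt_zero (z := ww y.1) (by linarith)]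
  have h4 : GG P y = (((tt (zz y.1) * r1 + tt (ww y.1) * r2 + (1 - tt (zz y.1) - tt (ww y.1)) *
      (32 * ‖st y.2.1‖ ^ 2) : ℝ) : ℂ) * (st y.2.1 / ‖st y.2.1‖) ^ 2) • P.bas 0 := by
    rw [GG, b1, b2, ← smul_assoc, ← smul_assoc, ← smul_assoc, ← add_smul, ← add_smul]
    congr 1
    simp only [Complex.real_smul]
    push_cast
    field_simp
  rw [h4]
  refine ⟨?_, P.cc_hat_smul_bas _⟩
  have h5 : 2 ≤ 32 * ‖st y.2.1‖ ^ 2 := by nlinarith
  rw [P.cc_smul_bas_apply, norm_mul, Complex.norm_real, Par.cc_unit_sq hz0, mul_one]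
  refine le_trans ?_ (le_abs_self _)
  nlinarith [mul_le_mul_of_nonneg_left a1 h1, mul_le_mul_of_nonneg_left a2 h2,
    mul_le_mul_of_nonneg_left h5 (show 0 ≤ 1 - tt (zz y.1) - tt (ww y.1) by linarith)]

noncomputable abbrev II (P : Par) := (𝓡 3).prod ((𝓡 2).prod (𝓡 (2 * P.p)))

theorem contMDiffAt_term {c : S3 → ℂ} (hc : ContMDiff (𝓡 3) 𝓘(ℝ, ℂ) 1 c) (y : S3 × Y P)
    (hx : y.2.1 ≠ nor) : ContMDiffAt (II P) 𝓘(ℝ, P.V) 1
      (fun y : S3 × Y P => tt (c y.1) • P.G (ang (c y.1)) y.2.1 y.2.2) y := by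
  have h0 : ContMDiffAt (II P) 𝓘(ℝ, ℂ) 1 (fun y : S3 × Y P => c y.1) y :=
    hc.contMDiffAt.comp y contMDiffAt_fst
  by_cases hz : c y.1 = 0
  · refine (contMDiffAt_const (c := 0)).congr_of_eventuallyEq ?_
    have h1 : ∀ᶠ y' in 𝓝 y, ‖c y'.1‖ ^ 2 < 1 / 2 :=
      (h0.continuousAt.norm.pow 2).eventually (gt_mem_nhds (by simp [hz]))
    filter_upwards [h1] with y' hy'
    rw [tt_zero hy'.le, zero_smul]
  · refine (contDiff_tt.contMDiff.contMDiffAt.comp y h0).smul ?_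
    have h1 := P.contMDiffAt_G (P.F_contDiff_of P.WR_contDiff) P.WR_contDiff P.F_eq_W P.A_le
      (ang (c y.1), y.2) hx
    exact h1.comp y (((contMDiffAt_ang hz).comp y h0).prodMk contMDiffAt_snd)

theorem contMDiffAt_GG (y : S3 × Y P) (hx : y.2.1 ≠ nor) :
    ContMDiffAt (II P) 𝓘(ℝ, P.V) 1 (GG P) y := by
  refine ((contMDiffAt_term P contMDiff_zz y hx).add (contMDiffAt_term P contMDiff_ww y hx)).add ?_
  have h1 : ∀ c : S3 → ℂ, ContMDiff (𝓡 3) 𝓘(ℝ, ℂ) 1 c →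
      ContMDiffAt (II P) 𝓘(ℝ, ℝ) 1 (fun y : S3 × Y P => tt (c y.1)) y := fun c hc =>
    contDiff_tt.contMDiff.contMDiffAt.comp y (hc.contMDiffAt.comp y contMDiffAt_fst)
  have h2 : ContMDiffAt (II P) 𝓘(ℝ, ℂ) 1 (fun y' : S3 × Y P => st y'.2.1) y :=
    (contMDiffAt_st hx).comp y (contMDiffAt_fst.comp y contMDiffAt_snd)
  have h3 : ContDiff ℝ 1 fun u : ℂ => (32 * u ^ 2) • P.bas 0 :=
    (contDiff_const.mul (contDiff_id.pow 2)).smul contDiff_const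
  exact ((contMDiffAt_const.sub (h1 _ contMDiff_zz)).sub (h1 _ contMDiff_ww)).smul
    (h3.contMDiff.contMDiffAt.comp y h2)

theorem gM_contMDiff : ContMDiff (II P) (II P) 1 (gM P) := by
  classical
  intro y
  refine ((contMDiff_RR P.ω).contMDiffAt.comp y contMDiffAt_fst).prodMk ?_
  have hc : Continuous fun y' : S3 × Y P => ht y'.2.1 :=
    continuous_ht.comp (continuous_fst.comp continuous_snd)
  have hne : ∀ x : Sph ℂ, ht x < -(3 / 4) → x ≠ nor := by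
    rintro _ h rfl
    rw [show ht (nor : Sph ℂ) = 1 from rfl] at h
    norm_num at h
  by_cases hx : -(15 / 17) < ht y.2.1
  · refine (contMDiffAt_const (c := ((nor, sou) : Y P))).congr_of_eventuallyEq ?_
    filter_upwards [hc.continuousAt.eventually (lt_mem_nhds hx)] with y' hy'
    split_ifs with h3
    · have h6 : 1 / 4 ≤ ‖st y'.2.1‖ := by
        refine le_of_sq_le_sq ?_ (norm_nonneg _)
        rw [norm_st_sq (hne _ h3), le_div_iff₀ (by linarith only [h3])]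
        linarith only [hy']
      obtain ⟨h10, h11⟩ := GG_far P y' h6
      rw [h11, E2_of_two_le h10, ist_zero]
    · rfl
  · have hx' : ht y.2.1 < -(3 / 4) := by linarith [not_lt.1 hx]
    have hG := contMDiffAt_GG P y (hne _ hx')
    have h1 : ContMDiffAt (II P) (𝓡 2) 1 (fun y : S3 × Y P => E2 (GG P y 0)) y :=
      (contMDiff_E2 (m := 1)).contMDiffAt.comp y
        ((P.contDiff_zeroCoord (n := 1)).contMDiff.contMDiffAt.comp y hG)
    have h2 : ContMDiffAt (II P) (𝓡 (2 * P.p)) 1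
        (fun y : S3 × Y P => (ist (P.hat (GG P y)) : Sph P.V)) y :=
      (contMDiff_ist (V := P.V) (n := 2 * P.p) (m := 1)).contMDiffAt.comp y
        ((P.contDiff_hat (n := 1)).contMDiff.contMDiffAt.comp y hG)
    refine (h1.prodMk h2).congr_of_eventuallyEq ?_
    filter_upwards [hc.continuousAt.eventually (gt_mem_nhds hx')] with y' hy'
    rw [if_pos hy']

noncomputable def gC : C(S3 × Y P, S3 × Y P) := ⟨gM P, (gM_contMDiff P).continuous⟩

def inc (ζ : Circle) : S3 :=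
  ⟨WithLp.toLp 2 ((ζ : ℂ), (0 : ℂ)), by simp [Circle.norm_coe]⟩

def iC : C(Circle × Y P, S3 × Y P) :=
  ⟨fun y => (inc y.1, y.2), (Continuous.subtype_mk (by fun_prop) _).prodMk continuous_snd⟩

theorem gM_inc (y : Circle × Y P) : gM P (iC P y) = iC P (P.fM y) := by
  refine Prod.ext (Subtype.ext ?_) ?_
  · change ‖LL P.ω (inc y.1).1‖⁻¹ • LL P.ω (inc y.1).1 = (inc (P.ω * y.1)).1
    have h : ‖LL P.ω (inc y.1).1‖ = 2 := by simp [LL, inc, Circle.norm_coe]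
    rw [h]
    apply (WithLp.linearEquiv 2 ℝ (ℂ × ℂ)).injective
    refine Prod.ext ?_ ?_
    · change (2 : ℝ)⁻¹ • (2 * (P.ω : ℂ) * y.1) = (P.ω * y.1 : Circle)
      rw [Complex.real_smul]
      push_cast
      ring
    · change (2 : ℝ)⁻¹ • ((P.ω : ℂ) * 0) = 0
      simp
  · rw [gM_z P (by simp [iC, inc, ww])]
    have h := ang_eq one_pos y.1
    rw [Complex.ofReal_one, one_mul] at h
    change P.fib (ang y.1) _ _ = _
    rw [h]
    rfl

theorem exists_eigen : ∃ x, x ≠ 0 ∧ homologyMap 2 (gC P) x = (2 : ℝ) • x := by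
  obtain ⟨c, hc0, hD⟩ := _root_.P103.Hlg.exists_class
  have hD' : Hm.hm 2 ⟨Dmap, continuous_Dmap⟩ c = (2 : ℝ) • c := hD
  have h1 : Hm.hm 2 (⟨P.fM, P.fM_continuous⟩ : C(_, _)) (Hm.hm 2 P.jmap c) =
      (2 : ℝ) • Hm.hm 2 P.jmap c := by
    rw [← Hm.hm_comp, Hm.hm_homotopic 2 (P.fM_homotopic' P.fM_continuous), Hm.hm_comp, hD',
      map_smul]
  refine ⟨Hm.hm 2 (iC P) (Hm.hm 2 P.jmap c), fun h0 => hc0 ?_, ?_⟩
  · have := congrArg (Hm.hm 2 (⟨fun y => y.2.1, by fun_prop⟩ : C(S3 × Y P, Sph ℂ))) h0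
    rw [← Hm.hm_comp, ← Hm.hm_comp, map_zero] at this
    exact (Hm.hm_id 2 c).symm.trans this
  · have h2 : (gC P).comp (iC P) = (iC P).comp ⟨P.fM, P.fM_continuous⟩ :=
      ContinuousMap.ext (gM_inc P)
    change Hm.hm 2 (gC P) _ = _
    rw [← Hm.hm_comp, h2, Hm.hm_comp, h1, map_smul]

end Vale.Agent.N103
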